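import Claimed.Agent.R282.Rep.Defs
import Claimed.Agent.R282.Rep.C.WDkit.Cham

/-!
# Row 282, Rep, LEAF L-C-ASM (statements by helper103), ~400 lines

`steinberg_assembly`: unfold `altWD`, `tensorMult`; `Finset.mul_sum`, `ite` algebra; `z - ((X + ρ - y) + ρ) = y + z - (X + 2 • ρ)`.
`altWD_dominant`: `κ + ρ`, `X + ρ` are strictly dominant (`|x_j| < x_i` for `i < j`).  If `signedPermAct σ s (κ + ρ) = X + ρ` with `s` even then `σ = 1`, `s = false`, `κ = X`: absolute values are strictly decreasing on both sides except possibly ... (the last may be `0`), so `σ = 1`;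
signs: coordinates `i < n - 1` are positive on both sides, so `s i = false`; parity gives `s (n-1) = false`.
-/

set_option autoImplicit false

namespace Claimed.Agent.R282

open Claims.C0456 Matrix

variable {n : ℕ}
variable {ι ι' ι₁ ι₂ ι₃ : Type} [Fintype ι] [DecidableEq ι] [Fintype ι'] [DecidableEq ι']
  [Fintype ι₁] [DecidableEq ι₁] [Fintype ι₂] [DecidableEq ι₂] [Fintype ι₃] [DecidableEq ι₃]

/-- (C-e) assembling Steinberg's formula in the frozen form -/
theorem steinberg_assembly (L M X : Fin n → ℤ) :
    altWD (fun y => altWD (fun z => (kostantD (z - ((X + rho2 n - y) + rho2 n)) : ℤ)) (M + rho2 n))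
      (L + rho2 n) = tensorMult L M X := by
  unfold altWD tensorMult
  refine Finset.sum_congr rfl fun σ _ => Finset.sum_congr rfl fun s _ => ?_
  by_cases hs : Even (Finset.univ.filter fun i => s i = true).card
  · rw [if_pos hs, Finset.mul_sum]
    refine Finset.sum_congr rfl fun τ _ => ?_
    rw [Finset.mul_sum]
    refine Finset.sum_congr rfl fun t _ => ?_
    by_cases ht : Even (Finset.univ.filter fun i => t i = true).card
    · rw [if_pos ht, if_pos ⟨hs, ht⟩]
      have e : signedPermAct τ t (M + rho2 n) - (X + rho2 n - signedPermAct σ s (L + rho2 n) + rho2 n)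
          = signedPermAct σ s (L + rho2 n) + signedPermAct τ t (M + rho2 n) - (X + 2 • rho2 n) := by
        abel
      beta_reduce
      rw [e, mul_assoc]
    · rw [if_neg ht, if_neg (fun h => ht h.2), mul_zero]
  · rw [if_neg hs]
    symm
    exact Finset.sum_eq_zero fun τ _ => Finset.sum_eq_zero fun t _ => if_neg (fun h => hs h.1)

/-- (C-f) alternants of strictly dominant weights are "orthonormal" -/
theorem altWD_dominant (κ X : Fin n → ℤ) (hκ : IsDominantWeight2 κ) (hX : IsDominantWeight2 X) :
    altWD (fun y => if X + rho2 n = y then 1 else 0) (κ + rho2 n) = if κ = X then 1 else 0 := by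
  have hκr := add_rho2_reg κ hκ
  have hXr := add_rho2_reg X hX
  have key : ∀ (σ : Equiv.Perm (Fin n)) (s : Fin n → Bool), evenS s →
      X + rho2 n = signedPermAct σ s (κ + rho2 n) → κ = X ∧ σ = 1 ∧ s = fun _ => false := by
    intro σ s hs h
    have h1 := spa_dom_unique (κ + rho2 n) (fun i j hij => (hκr i j hij).le) σ s hs
      (by rw [← h]; exact fun i j hij => (hXr i j hij).le)
    exact ⟨(add_right_cancel (h.trans h1)).symm, spa_stab _ hκr σ s hs h1⟩
  rw [altWD_eq_single]
  · by_cases h : κ = X
    · rw [if_pos h, h, if_pos rfl]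
    · rw [if_neg h, if_neg (fun h' => h (add_right_cancel h').symm)]
  · intro σ s hs hne
    exact if_neg fun h => hne (key σ s hs h).2

end Claimed.Agent.R282
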