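import Claimed.Agent.R282.Rep.Defs

/-!
# Row 282, Rep, LEAF L-C-DENOM : Weyl denominator identity for `D_n` (statement by helper103), ~1k lines, strong prover

In `A = AddMonoidAlgebra ℤ (Fin n → ℤ)` put `x_i = single (2 e_i) 1` (units), `y_i = x_i + x_i⁻¹`, `k_j = n - 1 - j`.
(i)  RHS `= e^ρ ∏_(i<j) (1 - x_j x_i⁻¹)(1 - x_i⁻¹ x_j⁻¹) = ∏_(i<j) (y_i - y_j)` because `x_i (1 - x_j/x_i)(1 - 1/(x_i x_j)) = y_i - y_j` and `∏_(i<j) x_i = e^ρ`; expansion of the product over subsets: `Finset.prod_one_sub`-type lemma (`Finset.prod_add`).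
(ii) `∏_(i<j) (y_i - y_j)` is (up to the order convention) `Matrix.det_vandermonde`; `Matrix.det_eval_matrixOfPolynomials_eq_det_vandermonde` with the monic polynomials `p_0 = 1`, `p_k = Polynomial.dickson 1 1 k` (`k ≥ 1`; `Polynomial.dickson_one_one_eval_add_inv`; prove monic of degree `k`):
     `= det (M)`, `M i j = x_i^(k_j) + x_i^(-k_j)` for `k_j > 0`, `= 1` for `k_j = 0`.
(iii) Leibniz expansion of `det M`, expansion of the product of the `n - 1` binomials: sign vectors on the `n - 1` coordinates with `k ≠ 0` ↔ EVEN sign vectors on `n` coordinates (the coordinate with `ρ = 0` absorbs the parity). This is LHS.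
Then compare coefficients at `ν`.  `n = 0` trivial.
-/

set_option autoImplicit false
set_option linter.unusedSectionVars false

namespace Claimed.Agent.R282

open Claims.C0456 Matrix Polynomial

variable {n : ℕ}
variable {ι ι' ι₁ ι₂ ι₃ : Type} [Fintype ι] [DecidableEq ι] [Fintype ι'] [DecidableEq ι']
  [Fintype ι₁] [DecidableEq ι₁] [Fintype ι₂] [DecidableEq ι₂] [Fintype ι₃] [DecidableEq ι₃]

/-! ### the group algebra of `ℤⁿ` -/

/-- `e^v` in the group algebra of `ℤⁿ` -/
noncomputable def cdnE (v : Fin n → ℤ) : AddMonoidAlgebra ℤ (Fin n → ℤ) :=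
  AddMonoidAlgebra.single v 1

/-- the coefficient at `ν` -/
noncomputable def cdnC (ν : Fin n → ℤ) : AddMonoidAlgebra ℤ (Fin n → ℤ) →+ ℤ :=
  (Finsupp.applyAddHom ν).comp
    (AddMonoidAlgebra.coeffAddEquiv (R := ℤ) (M := Fin n → ℤ)).toAddMonoidHom

/-- `x_i^z` (in doubled coordinates `e^(z e_i)`) -/
noncomputable def cdnX (i : Fin n) (z : ℤ) : AddMonoidAlgebra ℤ (Fin n → ℤ) :=
  cdnE (Pi.single i z)

theorem cdn_E_def (v : Fin n → ℤ) : cdnE v = AddMonoidAlgebra.single v 1 := rfl

theorem cdn_X_def (i : Fin n) (z : ℤ) : cdnX i z = cdnE (Pi.single i z) := rfl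

theorem cdn_E_add (v w : Fin n → ℤ) : cdnE (v + w) = cdnE v * cdnE w := by
  rw [cdn_E_def, cdn_E_def, cdn_E_def, AddMonoidAlgebra.single_mul_single, mul_one]

theorem cdn_E_zero : cdnE (0 : Fin n → ℤ) = 1 := rfl

theorem cdn_E_sum {ι : Type} (s : Finset ι) (f : ι → Fin n → ℤ) :
    cdnE (∑ i ∈ s, f i) = ∏ i ∈ s, cdnE (f i) := by
  classical
  induction s using Finset.induction_on with
  | empty => simp [cdn_E_zero]
  | insert a s ha ih => rw [Finset.sum_insert ha, Finset.prod_insert ha, cdn_E_add, ih]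

theorem cdn_C_E (ν v : Fin n → ℤ) : cdnC ν (cdnE v) = if ν = v then 1 else 0 := by
  show (AddMonoidAlgebra.single v (1 : ℤ)).coeff ν = _
  rw [AddMonoidAlgebra.coeff_single, Finsupp.single_apply]
  by_cases h : ν = v
  · rw [if_pos h, if_pos h.symm]
  · rw [if_neg h, if_neg (fun e => h e.symm)]

theorem cdn_C_two_mul (ν : Fin n → ℤ) (z : AddMonoidAlgebra ℤ (Fin n → ℤ)) :
    cdnC ν (2 * z) = 2 * cdnC ν z := by
  rw [two_mul, map_add, two_mul]

theorem cdn_X_add (i : Fin n) (a b : ℤ) : cdnX i (a + b) = cdnX i a * cdnX i b := by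
  rw [cdn_X_def, cdn_X_def, cdn_X_def, ← cdn_E_add, Pi.single_add]

theorem cdn_X_zero (i : Fin n) : cdnX i 0 = 1 := by
  rw [cdn_X_def, Pi.single_zero, cdn_E_zero]

theorem cdn_X_neg_mul (i : Fin n) (a : ℤ) : cdnX i a * cdnX i (-a) = 1 := by
  rw [← cdn_X_add, add_neg_cancel, cdn_X_zero]

theorem cdn_X_pow (i : Fin n) (a : ℤ) (k : ℕ) : cdnX i a ^ k = cdnX i (k * a) := by
  induction k with
  | zero => simp [cdn_X_zero]
  | succ k ih => rw [pow_succ, ih, ← cdn_X_add]; congr 1; push_cast; ring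

theorem cdn_E_eq_prod (v : Fin n → ℤ) : cdnE v = ∏ i, cdnX i (v i) := by
  conv_lhs => rw [← Finset.univ_sum_single v]
  exact cdn_E_sum _ _

/-! ### (I) expansion of the product -/

theorem cdn_expand {R : Type} [Fintype R] [DecidableEq R] (ρ : Fin n → ℤ) (β : R → Fin n → ℤ) :
    ∑ T : Finset R, (-1 : ℤ) ^ T.card • cdnE (ρ - ∑ r ∈ T, β r)
      = cdnE ρ * ∏ r, (1 - cdnE (-β r)) := by
  have h1 : ∏ r, (1 - cdnE (-β r)) = ∑ T : Finset R, ∏ r ∈ T, (-cdnE (-β r)) := by
    simp only [sub_eq_add_neg]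
    rw [Finset.prod_one_add, Finset.powerset_univ]
  rw [h1, Finset.mul_sum]
  refine Finset.sum_congr rfl fun T _ => ?_
  rw [Finset.prod_neg, ← cdn_E_sum, Finset.sum_neg_distrib, sub_eq_add_neg, cdn_E_add]
  rw [zsmul_eq_mul]
  push_cast
  ring

/-! ### the polynomials `p_k (x + 1/x) = x^k + x^(-k)` -/

section Poly
variable (R : Type) [CommRing R] [Nontrivial R]

theorem cdn_dickson_aux (m : ℕ) : (dickson 1 (1 : R) (m + 1)).Monic ∧
    (dickson 1 (1 : R) (m + 1)).natDegree = m + 1 ∧ (dickson 1 (1 : R) m).natDegree ≤ m := by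
  induction m with
  | zero =>
    refine ⟨?_, ?_, ?_⟩
    · rw [zero_add, dickson_one]; exact monic_X
    · rw [zero_add, dickson_one]; exact natDegree_X
    · rw [dickson_zero]
      exact (natDegree_sub_le _ _).trans (by simp)
  | succ m ih =>
    obtain ⟨h1, h2, h3⟩ := ih
    have hX : (X * dickson 1 (1 : R) (m + 1)).natDegree = m + 2 := by
      rw [monic_X.natDegree_mul h1, natDegree_X, h2]; ring
    have hC : (C (1 : R) * dickson 1 (1 : R) m).natDegree < (X * dickson 1 (1 : R) (m + 1)).natDegree := by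
      rw [hX, C_1, one_mul]; omega
    refine ⟨?_, ?_, h2.le⟩
    · rw [dickson_add_two]
      exact (monic_X.mul h1).sub_of_left (degree_lt_degree hC)
    · rw [dickson_add_two, natDegree_sub_eq_left_of_natDegree_lt hC, hX]

/-- `p_0 = 1`, `p_k = ` Dickson polynomial -/
noncomputable def cdnP (k : ℕ) : R[X] := if k = 0 then 1 else dickson 1 (1 : R) k

theorem cdn_P_zero : cdnP R 0 = 1 := if_pos rfl

theorem cdn_P_succ (k : ℕ) : cdnP R (k + 1) = dickson 1 (1 : R) (k + 1) := if_neg (Nat.succ_ne_zero k)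

theorem cdn_P_monic (k : ℕ) : (cdnP R k).Monic := by
  cases k with
  | zero => rw [cdn_P_zero]; exact monic_one
  | succ k => rw [cdn_P_succ]; exact (cdn_dickson_aux R k).1

theorem cdn_P_natDegree (k : ℕ) : (cdnP R k).natDegree = k := by
  cases k with
  | zero => rw [cdn_P_zero]; exact natDegree_one
  | succ k => rw [cdn_P_succ]; exact (cdn_dickson_aux R k).2.1

theorem cdn_P_eval {x y : R} (h : x * y = 1) (k : ℕ) (hk : k ≠ 0) :
    (cdnP R k).eval (x + y) = x ^ k + y ^ k := by
  obtain ⟨k, rfl⟩ := Nat.exists_eq_succ_of_ne_zero hk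
  rw [Nat.succ_eq_add_one, cdn_P_succ]
  exact dickson_one_one_eval_add_inv x y h _

end Poly

/-- generates the equation lemmas of the definitions above in this file (rule 6) -/
theorem cdn_eqns_cite : True := by
  have := @cdnE.eq_1
  have := @cdnC.eq_1
  have := @cdnX.eq_1
  have := @cdnP.eq_1
  trivial

/-- Vandermonde with the columns `p_(N-j)` -/
theorem cdn_det_poly {R : Type} [CommRing R] [Nontrivial R] (N : ℕ) (y : Fin (N + 1) → R) :
    (Matrix.of fun i j : Fin (N + 1) => (cdnP R (N - j)).eval (y i)).det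
      = ∏ i, ∏ j, if i < j then y i - y j else 1 := by
  have h1 := Matrix.det_eval_matrixOfPolynomials_eq_det_vandermonde (fun i => y (Fin.rev i))
    (fun j : Fin (N + 1) => cdnP R j) (fun i => cdn_P_natDegree R i) (fun i => cdn_P_monic R i)
  have h2 : (Matrix.of fun i j : Fin (N + 1) => (cdnP R j).eval (y (Fin.rev i)))
      = (Matrix.of fun i j : Fin (N + 1) => (cdnP R (N - j)).eval (y i)).submatrix
          Fin.revPerm Fin.revPerm := by
    ext i j
    simp only [Matrix.submatrix_apply, Matrix.of_apply, Fin.revPerm_apply, Fin.val_rev]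
    congr 2
    omega
  rw [h2, Matrix.det_submatrix_equiv_self] at h1
  rw [← h1, Matrix.det_vandermonde]
  have h3 : ∀ i : Fin (N + 1), ∏ j ∈ Finset.Ioi i, (y (Fin.rev j) - y (Fin.rev i))
      = ∏ j, if i < j then y (Fin.rev j) - y (Fin.rev i) else 1 := by
    intro i
    rw [← Finset.prod_filter]
    congr 1
    ext j
    simp
  simp only [h3]
  rw [← Equiv.prod_comp Fin.revPerm]
  have h4 : ∀ i : Fin (N + 1), (∏ j, if Fin.revPerm i < j then y (Fin.rev j) - y (Fin.rev (Fin.revPerm i)) else 1)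
      = ∏ j, if j < i then y j - y i else 1 := by
    intro i
    rw [← Equiv.prod_comp Fin.revPerm]
    refine Finset.prod_congr rfl fun j _ => ?_
    simp only [Fin.revPerm_apply, Fin.rev_rev, Fin.rev_lt_rev]
  simp only [h4]
  exact Finset.prod_comm


/-! ### (II) the product side -/

theorem cdn_rho2_apply (n : ℕ) (i : Fin n) : rho2 n i = 2 * ((n : ℤ) - 1 - (i : ℕ)) := rfl

theorem cdn_posRoot2_apply (i j : Fin n) (b : Bool) (k : Fin n) :
    posRoot2 i j b k = 2 * ((if k = i then 1 else 0) + (if b then 1 else -1) * (if k = j then 1 else 0)) :=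
  rfl

theorem cdn_act_apply (σ : Equiv.Perm (Fin n)) (s : Fin n → Bool) (x : Fin n → ℤ) (i : Fin n) :
    signedPermAct σ s x i = (if s i then -1 else 1) * x (σ.symm i) := rfl

theorem cdn_E_neg_root (i j : Fin n) (b : Bool) :
    cdnE (-posRoot2 i j b) = cdnX i (-2) * cdnX j (if b then -2 else 2) := by
  rw [cdn_X_def, cdn_X_def, ← cdn_E_add]
  congr 1
  funext k
  rw [Pi.neg_apply, cdn_posRoot2_apply, Pi.add_apply, Pi.single_apply, Pi.single_apply]
  cases b <;> simp only [Bool.false_eq_true, if_false, if_true] <;> split_ifs <;> norm_num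

/-- product over the positive roots as a double product -/
theorem cdn_prod_roots {M : Type} [CommMonoid M] (F : Fin n × Fin n × Bool → M) :
    ∏ r : {r : Fin n × Fin n × Bool // r.1 < r.2.1}, F r.1
      = ∏ i, ∏ j, if i < j then F (i, j, true) * F (i, j, false) else 1 := by
  rw [← Finset.prod_subtype (Finset.univ.filter fun r : Fin n × Fin n × Bool => r.1 < r.2.1)
    (by simp) F, Finset.prod_filter, Fintype.prod_prod_type]
  refine Finset.prod_congr rfl fun i _ => ?_
  rw [Fintype.prod_prod_type]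
  refine Finset.prod_congr rfl fun j _ => ?_
  rw [Fintype.prod_bool]
  by_cases h : i < j <;> simp [h]

theorem cdn_E_rho (n : ℕ) :
    cdnE (rho2 n) = ∏ i : Fin n, ∏ j : Fin n, if i < j then cdnX i 2 else 1 := by
  rw [cdn_E_eq_prod]
  refine Finset.prod_congr rfl fun i _ => ?_
  rw [← Finset.prod_filter, Finset.prod_const, cdn_X_pow]
  congr 1
  have h1 : (Finset.univ.filter fun j : Fin n => i < j) = Finset.Ioi i := by
    ext j; simp
  rw [h1, Fin.card_Ioi, cdn_rho2_apply]
  have := i.2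
  push_cast [Nat.cast_sub (show (i : ℕ) ≤ n - 1 by omega), Nat.cast_sub (show 1 ≤ n by omega)]
  ring

theorem cdn_prod_side (n : ℕ) :
    cdnE (rho2 n) * ∏ r : {r : Fin n × Fin n × Bool // r.1 < r.2.1},
        (1 - cdnE (-posRoot2 r.1.1 r.1.2.1 r.1.2.2))
      = ∏ i : Fin n, ∏ j : Fin n,
          if i < j then (cdnX i 2 + cdnX i (-2)) - (cdnX j 2 + cdnX j (-2)) else 1 := by
  rw [cdn_prod_roots (fun r => 1 - cdnE (-posRoot2 r.1 r.2.1 r.2.2)), cdn_E_rho,
    ← Finset.prod_mul_distrib]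
  refine Finset.prod_congr rfl fun i _ => ?_
  rw [← Finset.prod_mul_distrib]
  refine Finset.prod_congr rfl fun j _ => ?_
  by_cases h : i < j
  · simp only [if_pos h, cdn_E_neg_root]
    have h1 := cdn_X_neg_mul i 2
    have h2 := cdn_X_neg_mul j 2
    simp only [if_true, Bool.false_eq_true, if_false]
    linear_combination (-(cdnX j 2 + cdnX j (-2)) + cdnX i (-2) * cdnX j 2 * cdnX j (-2)) * h1
      + cdnX i (-2) * h2
  · simp only [if_neg h, mul_one]

/-! ### sums over sign vectors -/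

theorem cdn_sum_all (w : Fin n → ℤ) :
    ∑ s : Fin n → Bool, cdnE (fun a => (if s a then -1 else 1) * w a)
      = ∏ a, (cdnX a (w a) + cdnX a (-w a)) := by
  have h := Finset.prod_univ_sum (fun _ : Fin n => (Finset.univ : Finset Bool))
    (fun a b => cdnX a ((if b then -1 else 1) * w a))
  rw [Fintype.piFinset_univ] at h
  rw [Finset.sum_congr rfl fun s _ => cdn_E_eq_prod _, ← h]
  refine Finset.prod_congr rfl fun a _ => ?_
  rw [Fintype.sum_bool]
  simp only [if_true, Bool.false_eq_true, if_false, one_mul, neg_mul]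
  exact add_comm _ _

theorem cdn_sum_sgn (w : Fin n → ℤ) :
    ∑ s : Fin n → Bool, (∏ a, (if s a then (-1 : ℤ) else 1)) •
        cdnE (fun a => (if s a then -1 else 1) * w a)
      = ∏ a, (cdnX a (w a) - cdnX a (-w a)) := by
  have h := Finset.prod_univ_sum (fun _ : Fin n => (Finset.univ : Finset Bool))
    (fun a b => (if b then (-1 : ℤ) else 1) • cdnX a ((if b then -1 else 1) * w a))
  rw [Fintype.piFinset_univ] at h
  have h2 : ∀ s : Fin n → Bool, (∏ a, (if s a then (-1 : ℤ) else 1)) •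
        cdnE (fun a => (if s a then -1 else 1) * w a)
      = ∏ a, (if s a then (-1 : ℤ) else 1) • cdnX a ((if s a then -1 else 1) * w a) := by
    intro s
    rw [cdn_E_eq_prod, Finset.prod_smul]
  rw [Finset.sum_congr rfl fun s _ => h2 s, ← h]
  refine Finset.prod_congr rfl fun a _ => ?_
  rw [Fintype.sum_bool]
  simp only [if_true, Bool.false_eq_true, if_false, one_mul, neg_mul, one_smul, neg_smul]
  ring

/-- parity of a sign vector -/
theorem cdn_parity (s : Fin n → Bool) (c : ℤ) :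
    2 * (if Even (Finset.univ.filter fun i => s i = true).card then c else 0)
      = c + (∏ a, (if s a then (-1 : ℤ) else 1)) * c := by
  have h : (∏ a, (if s a then (-1 : ℤ) else 1)) = (-1) ^ (Finset.univ.filter fun i => s i = true).card := by
    rw [Finset.prod_ite, Finset.prod_const, Finset.prod_const_one, mul_one]
  rw [h]
  by_cases he : Even (Finset.univ.filter fun i => s i = true).card
  · rw [if_pos he, he.neg_one_pow]; ring
  · rw [if_neg he, (Nat.not_even_iff_odd.1 he).neg_one_pow]; ring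

/-! ### determinants -/

theorem cdn_det_plus (w : Fin n → ℤ) :
    (Matrix.of fun i j : Fin n => cdnX i (w j) + cdnX i (-w j)).det
      = ∑ σ : Equiv.Perm (Fin n), ∑ s : Fin n → Bool,
          ((Equiv.Perm.sign σ : ℤˣ) : ℤ) • cdnE (signedPermAct σ s w) := by
  rw [Matrix.det_apply]
  refine Finset.sum_congr rfl fun σ _ => ?_
  rw [Units.smul_def, ← Finset.smul_sum]
  congr 1
  rw [← Equiv.prod_comp σ.symm]
  simp only [Matrix.of_apply, Equiv.apply_symm_apply]
  exact (cdn_sum_all fun a => w (σ.symm a)).symm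

theorem cdn_det_minus (w : Fin n → ℤ) :
    (Matrix.of fun i j : Fin n => cdnX i (w j) - cdnX i (-w j)).det
      = ∑ σ : Equiv.Perm (Fin n), ∑ s : Fin n → Bool,
          ((Equiv.Perm.sign σ : ℤˣ) : ℤ) • ((∏ a, (if s a then (-1 : ℤ) else 1)) •
            cdnE (signedPermAct σ s w)) := by
  rw [Matrix.det_apply]
  refine Finset.sum_congr rfl fun σ _ => ?_
  rw [Units.smul_def, ← Finset.smul_sum]
  congr 1
  rw [← Equiv.prod_comp σ.symm]
  simp only [Matrix.of_apply, Equiv.apply_symm_apply]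
  exact (cdn_sum_sgn fun a => w (σ.symm a)).symm

theorem cdn_rho2_last (N : ℕ) : rho2 (N + 1) (Fin.last N) = 0 := by
  rw [cdn_rho2_apply, Fin.val_last]; push_cast; ring

theorem cdn_det_minus_rho (N : ℕ) :
    (Matrix.of fun i j : Fin (N + 1) =>
      cdnX i (rho2 (N + 1) j) - cdnX i (-rho2 (N + 1) j)).det = 0 := by
  refine Matrix.det_eq_zero_of_column_eq_zero (Fin.last N) fun i => ?_
  rw [Matrix.of_apply, cdn_rho2_last, neg_zero, sub_self]

theorem cdn_det_plus_rho (N : ℕ) :
    (Matrix.of fun i j : Fin (N + 1) =>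
      cdnX i (rho2 (N + 1) j) + cdnX i (-rho2 (N + 1) j)).det
      = 2 * ∏ i : Fin (N + 1), ∏ j : Fin (N + 1),
          if i < j then (cdnX i 2 + cdnX i (-2)) - (cdnX j 2 + cdnX j (-2)) else 1 := by
  rw [← cdn_det_poly N fun i : Fin (N + 1) => cdnX i 2 + cdnX i (-2)]
  have h1 : (∏ j : Fin (N + 1), if j = Fin.last N then
      (2 : AddMonoidAlgebra ℤ (Fin (N + 1) → ℤ)) else 1) = 2 := by
    rw [Finset.prod_ite_eq' Finset.univ (Fin.last N) fun _ => (2 : AddMonoidAlgebra ℤ (Fin (N + 1) → ℤ))]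
    simp
  rw [← h1, ← Matrix.det_mul_row]
  congr 1
  ext i j
  rw [Matrix.of_apply, Matrix.of_apply, Matrix.of_apply]
  by_cases hj : j = Fin.last N
  · subst hj
    rw [if_pos rfl, cdn_rho2_last, neg_zero, cdn_X_zero, Fin.val_last, Nat.sub_self, cdn_P_zero,
      eval_one]
    norm_num
  · rw [if_neg hj, one_mul]
    have hjN : (j : ℕ) < N := by
      have h2 := j.2
      have h3 : (j : ℕ) ≠ N := fun e => hj (Fin.ext (by rw [e, Fin.val_last]))
      omega
    rw [cdn_P_eval _ (cdn_X_neg_mul i 2) (N - j) (by omega), cdn_X_pow, cdn_X_pow, cdn_rho2_apply]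
    have h4 : ((N - (j : ℕ) : ℕ) : ℤ) = (N : ℤ) - (j : ℕ) := by
      rw [Nat.cast_sub hjN.le]
    have e1 : (2 : ℤ) * (((N + 1 : ℕ) : ℤ) - 1 - (j : ℕ)) = ((N - (j : ℕ) : ℕ) : ℤ) * 2 := by
      rw [h4]; push_cast; ring
    have e2 : -((2 : ℤ) * (((N + 1 : ℕ) : ℤ) - 1 - (j : ℕ))) = ((N - (j : ℕ) : ℕ) : ℤ) * (-2) := by
      rw [h4]; push_cast; ring
    rw [e2, e1]

/-- (C-a) Weyl denominator identity for `D_n`: `∑_w det(w) e^(wρ) = e^ρ ∏_(β>0) (1 - e^(-β))` -/
theorem denomD (ν : Fin n → ℤ) :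
    altWD (fun y => if ν = y then 1 else 0) (rho2 n) =
      ∑ T : Finset {r : Fin n × Fin n × Bool // r.1 < r.2.1},
        if ν = rho2 n - ∑ r ∈ T, posRoot2 r.1.1 r.1.2.1 r.1.2.2 then (-1 : ℤ) ^ T.card else 0 := by
  cases n with
  | zero =>
    have hν : ∀ y : Fin 0 → ℤ, ν = y := fun y => Subsingleton.elim _ _
    have hE : IsEmpty {r : Fin 0 × Fin 0 × Bool // r.1 < r.2.1} := ⟨fun r => r.1.1.elim0⟩
    show (∑ σ : Equiv.Perm (Fin 0), ∑ s : Fin 0 → Bool,
      if Even (Finset.univ.filter fun i => s i = true).card then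
        ((Equiv.Perm.sign σ : ℤˣ) : ℤ) * (if ν = signedPermAct σ s (rho2 0) then 1 else 0) else 0) = _
    simp
    rw [if_pos (hν _), if_pos (hν _)]
    simp [Finset.eq_empty_of_isEmpty]
  | succ N =>
    have hL : 2 * altWD (fun y => if ν = y then 1 else 0) (rho2 (N + 1))
        = cdnC ν (Matrix.of fun i j : Fin (N + 1) =>
            cdnX i (rho2 (N + 1) j) + cdnX i (-rho2 (N + 1) j)).det
          + cdnC ν (Matrix.of fun i j : Fin (N + 1) =>
            cdnX i (rho2 (N + 1) j) - cdnX i (-rho2 (N + 1) j)).det := by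
      rw [cdn_det_plus, cdn_det_minus]
      simp only [map_sum, map_zsmul, cdn_C_E, smul_eq_mul]
      rw [← Finset.sum_add_distrib]
      show 2 * (∑ σ : Equiv.Perm (Fin (N + 1)), ∑ s : Fin (N + 1) → Bool,
        if Even (Finset.univ.filter fun i => s i = true).card then
          ((Equiv.Perm.sign σ : ℤˣ) : ℤ) * (if ν = signedPermAct σ s (rho2 (N + 1)) then 1 else 0)
        else 0) = _
      rw [Finset.mul_sum]
      refine Finset.sum_congr rfl fun σ _ => ?_
      rw [← Finset.sum_add_distrib, Finset.mul_sum]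
      refine Finset.sum_congr rfl fun s _ => ?_
      rw [cdn_parity]
      ring
    rw [cdn_det_minus_rho, map_zero, add_zero, cdn_det_plus_rho, ← cdn_prod_side, ← cdn_expand,
      cdn_C_two_mul] at hL
    have hL2 := mul_left_cancel₀ (two_ne_zero) hL
    rw [hL2]
    simp only [map_sum, map_zsmul, cdn_C_E, smul_eq_mul, mul_ite, mul_one, mul_zero]

end Claimed.Agent.R282
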