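import Claimed.Agent.R282.Rep.Defs

/-!
# Row 282, Rep, LEAF L-C-KOSTINV (statement by helper103), ~500 lines

General statement by `Finset.induction_on` over a set `Sset` of positive roots: `P_S β = Nat.card {c : roots → ℕ // supp c ⊆ S ∧ ∑ c r • r = β}`.  All these sets are finite (`c r * 2 ≤ β · ρ`-type bound: every `posRoot2` has positive pairing with `rho2` shifted, e.g. with `(n, n-1, .., 1)`).
Step: `P_(S ∪ {r}) β - P_(S ∪ {r}) (β - r) = P_S β` (`c r = 0` or `c r ≥ 1`).  Then `∑_(T ⊆ S ∪ {r}) (-1)^|T| P_(S∪{r}) (β - ∑_T) = ∑_(T ⊆ S) (-1)^|T| P_S (β - ∑_T)`.  `P_∅ β = [β = 0]`.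
-/

set_option autoImplicit false

namespace Claimed.Agent.R282

open Claims.C0456 Matrix

variable {n : ℕ}
variable {ι ι' ι₁ ι₂ ι₃ : Type} [Fintype ι] [DecidableEq ι] [Fintype ι'] [DecidableEq ι']
  [Fintype ι₁] [DecidableEq ι₁] [Fintype ι₂] [DecidableEq ι₂] [Fintype ι₃] [DecidableEq ι₃]

section cki

variable {I V : Type} [Fintype I] [DecidableEq I] [AddCommGroup V]

/-- partitions of `γ` into roots of `S`. -/
def ckiSet (ρ : I → V) (S : Finset I) (γ : V) : Set (I → ℕ) :=
  {c | (∀ r, r ∉ S → c r = 0) ∧ ∑ r, c r • ρ r = γ}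

theorem cki_finite (ρ : I → V) (h : V →+ ℤ) (hpos : ∀ r, 0 < h (ρ r)) (S : Finset I) (γ : V) :
    (ckiSet ρ S γ).Finite := by
  refine (Set.finite_Iic (fun _ : I => (h γ).toNat)).subset ?_
  rintro c ⟨-, hc⟩ r
  have h1 : h γ = ∑ r, (c r : ℤ) * h (ρ r) := by
    rw [← hc, map_sum]
    refine Finset.sum_congr rfl fun r _ => ?_
    rw [map_nsmul, nsmul_eq_mul]
  have h2 : (c r : ℤ) * h (ρ r) ≤ h γ := by
    rw [h1]
    exact Finset.single_le_sum (f := fun r => (c r : ℤ) * h (ρ r))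
      (fun r _ => mul_nonneg (Int.natCast_nonneg _) (hpos r).le) (Finset.mem_univ r)
  have h3 : (c r : ℤ) ≤ (c r : ℤ) * h (ρ r) := le_mul_of_one_le_right (Int.natCast_nonneg _) (hpos r)
  show c r ≤ (h γ).toNat
  omega

theorem cki_sum_add (ρ : I → V) (c : I → ℕ) (r : I) :
    ∑ s, (c + Pi.single r 1 : I → ℕ) s • ρ s = ∑ s, c s • ρ s + ρ r := by
  simp only [Pi.add_apply, add_smul, Finset.sum_add_distrib]
  congr 1
  rw [Finset.sum_eq_single r]
  · simp
  · intro s _ hs
    simp [Pi.single_eq_of_ne hs]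
  · simp

theorem cki_step (ρ : I → V) (S : Finset I) (r : I) (hr : r ∉ S) (γ : V) :
    ckiSet ρ (insert r S) γ =
      ckiSet ρ S γ ∪ (fun c => c + Pi.single r 1) '' ckiSet ρ (insert r S) (γ - ρ r) := by
  ext c
  constructor
  · rintro ⟨h1, h2⟩
    by_cases h0 : c r = 0
    · left
      refine ⟨fun s hs => ?_, h2⟩
      by_cases hsr : s = r
      · rw [hsr, h0]
      · exact h1 s (by simp [hsr, hs])
    · right
      have hc : (c - Pi.single r 1) + Pi.single r 1 = c := by
        ext s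
        by_cases hsr : s = r
        · subst hsr
          simp only [Pi.add_apply, Pi.sub_apply, Pi.single_eq_same]
          omega
        · simp [Pi.single_eq_of_ne hsr]
      refine ⟨c - Pi.single r 1, ⟨fun s hs => ?_, ?_⟩, hc⟩
      · simp [h1 s hs]
      · have := cki_sum_add ρ (c - Pi.single r 1) r
        rw [hc, h2] at this
        rw [this]
        abel
  · rintro (⟨h1, h2⟩ | ⟨c', ⟨h1, h2⟩, rfl⟩)
    · exact ⟨fun s hs => h1 s (fun h => hs (Finset.mem_insert_of_mem h)), h2⟩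
    · refine ⟨fun s hs => ?_, ?_⟩
      · have hsr : s ≠ r := fun h => hs (h ▸ Finset.mem_insert_self _ _)
        simp [h1 s hs, Pi.single_eq_of_ne hsr]
      · rw [cki_sum_add, h2]
        abel

theorem cki_card_step (ρ : I → V) (h : V →+ ℤ) (hpos : ∀ r, 0 < h (ρ r)) (S : Finset I) (r : I)
    (hr : r ∉ S) (γ : V) :
    (ckiSet ρ (insert r S) γ).ncard =
      (ckiSet ρ S γ).ncard + (ckiSet ρ (insert r S) (γ - ρ r)).ncard := by
  rw [cki_step ρ S r hr γ, Set.ncard_union_eq ?_ (cki_finite ρ h hpos _ _)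
    ((cki_finite ρ h hpos _ _).image _), Set.ncard_image_of_injective _ (add_left_injective _)]
  rw [Set.disjoint_left]
  rintro c ⟨h1, -⟩ ⟨c', -, rfl⟩
  have := h1 r hr
  simp at this

omit [DecidableEq I] in
theorem cki_empty [DecidableEq V] (ρ : I → V) (γ : V) : ((ckiSet ρ ∅ γ).ncard : ℤ) = if γ = 0 then 1 else 0 := by
  by_cases hγ : γ = 0
  · have : ckiSet ρ ∅ γ = {0} := by
      ext c
      constructor
      · rintro ⟨h1, -⟩
        exact funext fun r => h1 r (Finset.notMem_empty r)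
      · rintro rfl
        exact ⟨fun _ _ => rfl, by simp [hγ]⟩
    rw [this, if_pos hγ, Set.ncard_singleton]
    rfl
  · have : ckiSet ρ ∅ γ = ∅ := by
      ext c
      constructor
      · rintro ⟨h1, h2⟩
        apply hγ
        rw [← h2]
        exact Finset.sum_eq_zero fun r _ => by rw [h1 r (Finset.notMem_empty r), zero_smul]
      · intro h
        exact h.elim
    rw [this, if_neg hγ, Set.ncard_empty]
    rfl

theorem cki_main [DecidableEq V] (ρ : I → V) (h : V →+ ℤ) (hpos : ∀ r, 0 < h (ρ r)) (S : Finset I) : ∀ γ : V,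
    ∑ T ∈ S.powerset, (-1 : ℤ) ^ T.card * ((ckiSet ρ S (γ - ∑ r ∈ T, ρ r)).ncard : ℤ) =
      if γ = 0 then 1 else 0 := by
  induction S using Finset.induction_on with
  | empty =>
    intro γ
    rw [Finset.powerset_empty, Finset.sum_singleton, Finset.card_empty, pow_zero, one_mul,
      Finset.sum_empty, sub_zero, cki_empty]
  | insert r S hr ih =>
    intro γ
    rw [Finset.sum_powerset_insert hr, ← ih γ, ← Finset.sum_add_distrib]
    refine Finset.sum_congr rfl fun T hT => ?_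
    have hrT : r ∉ T := fun h => hr (Finset.mem_powerset.1 hT h)
    have e : γ - (ρ r + ∑ x ∈ T, ρ x) = γ - ∑ x ∈ T, ρ x - ρ r := by abel
    rw [Finset.card_insert_of_notMem hrT, Finset.sum_insert hrT,
      cki_card_step ρ h hpos S r hr (γ - ∑ r ∈ T, ρ r), e]
    push_cast
    ring

end cki

/-- the height functional `x ↦ ∑ (n - k) x_k`. -/
def ckiH (n : ℕ) : (Fin n → ℤ) →+ ℤ where
  toFun x := ∑ k : Fin n, ((n : ℤ) - (k : ℕ)) * x k
  map_zero' := by simp
  map_add' x y := by simp [mul_add, Finset.sum_add_distrib]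

theorem ckiH_pos (i j : Fin n) (hij : i < j) (b : Bool) : 0 < ckiH n (posRoot2 i j b) := by
  have e : ∀ k : Fin n, ((n : ℤ) - (k : ℕ)) * posRoot2 i j b k =
      2 * (if k = i then ((n : ℤ) - (k : ℕ)) else 0) +
        2 * (if b then 1 else -1) * (if k = j then ((n : ℤ) - (k : ℕ)) else 0) := by
    intro k
    unfold posRoot2
    split_ifs <;> ring
  show 0 < ∑ k : Fin n, ((n : ℤ) - (k : ℕ)) * posRoot2 i j b k
  simp only [e, Finset.sum_add_distrib, ← Finset.mul_sum, Finset.sum_ite_eq', Finset.mem_univ, if_true]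
  have h1 : (i : ℕ) < (j : ℕ) := hij
  have h2 : (j : ℕ) < n := j.2
  cases b <;> simp <;> omega

/-- (C-b) `∏_(β>0) (1 - e^(-β)) * ∑ P(β) e^(-β) = 1` -/
theorem kostant_inv (β : Fin n → ℤ) :
    ∑ T : Finset {r : Fin n × Fin n × Bool // r.1 < r.2.1},
      (-1 : ℤ) ^ T.card * (kostantD (β - ∑ r ∈ T, posRoot2 r.1.1 r.1.2.1 r.1.2.2) : ℤ) =
        if β = 0 then 1 else 0 := by
  have h := cki_main (fun r : {r : Fin n × Fin n × Bool // r.1 < r.2.1} => posRoot2 r.1.1 r.1.2.1 r.1.2.2)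
    (ckiH n) (fun r => ckiH_pos _ _ r.2 _) Finset.univ β
  rw [Finset.powerset_univ] at h
  rw [← h]
  refine Finset.sum_congr rfl fun T _ => ?_
  congr 2
  unfold kostantD
  rw [← Nat.card_coe_set_eq]
  exact Nat.card_congr (Equiv.subtypeEquivRight fun c => by simp [ckiSet])

end Claimed.Agent.R282
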