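import Claimed.Agent.R282.Rep.C.Denom
import Claimed.Agent.R282.Rep.C.KostInv
import Claimed.Agent.R282.Rep.C.WDkit.Cham

/-!
# Row 282, Rep, LEAF L-C-KOST : Kostant's multiplicity formula (statements by helper103), ~700 lines

`kostant_altWD`: for every `F`, `altWD F ρ = ∑_T (-1)^|T| F (ρ - ∑_T)` (from `denomD`: write `F y = ∑_ν F ν [ν = y]` on the finite set of the `y`'s which occur); apply to `F y = kostantD (β + y - ρ)` and use `kostant_inv`.
`weylChar_kostant`: `K γ := altWD (fun y => kostantD (y - (γ + ρ))) (M + ρ)`.  `altWD (fun y => K (ν - y)) ρ = altWD (fun z => altWD (fun y => kostantD ((z - ν) + y - ρ)) ρ) (M + ρ) = altWD (fun z => [z = ν]) (M + ρ)`.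
So `d = m - K` satisfies `altWD (fun y => d (ν - y)) ρ = 0` for all `ν`, and `d γ ≠ 0` implies `γ · ρ' ≤ C` (`ρ' = (n, .., 1)` or `rho2`; `kostantD x ≠ 0` implies `x · ρ' ≥ 0`).  If `d ≠ 0` take `γ₀` in the support with `γ₀ · ρ` maximal (integers bounded above) and `ν = γ₀ + ρ`:
the terms `w ≠ 1` vanish because `(ρ - wρ) · ρ > 0` (`|wρ| = |ρ|`, `wρ ≠ ρ`, Cauchy-Schwarz or `C/WDkit`), so `d γ₀ = 0`.
-/

set_option autoImplicit false

namespace Claimed.Agent.R282

open Claims.C0456 Matrix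

variable {n : ℕ}
variable {ι ι' ι₁ ι₂ ι₃ : Type} [Fintype ι] [DecidableEq ι] [Fintype ι'] [DecidableEq ι']
  [Fintype ι₁] [DecidableEq ι₁] [Fintype ι₂] [DecidableEq ι₂] [Fintype ι₃] [DecidableEq ι₃]

/-- the denominator identity, applied to an arbitrary function -/
theorem ckf_denom (F : (Fin n → ℤ) → ℤ) :
    altWD F (rho2 n) = ∑ T : Finset {r : Fin n × Fin n × Bool // r.1 < r.2.1},
      (-1 : ℤ) ^ T.card * F (rho2 n - ∑ r ∈ T, posRoot2 r.1.1 r.1.2.1 r.1.2.2) := by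
  classical
  set Y : Finset (Fin n → ℤ) :=
    (Finset.univ.image fun p : Equiv.Perm (Fin n) × (Fin n → Bool) => signedPermAct p.1 p.2 (rho2 n)) ∪
      (Finset.univ.image fun T : Finset {r : Fin n × Fin n × Bool // r.1 < r.2.1} =>
        rho2 n - ∑ r ∈ T, posRoot2 r.1.1 r.1.2.1 r.1.2.2) with hY
  rw [altWD_expand F (rho2 n) Y (fun σ s _ => Finset.mem_union_left _
    (Finset.mem_image.2 ⟨(σ, s), Finset.mem_univ _, rfl⟩))]
  simp only [denomD, Finset.mul_sum]
  rw [Finset.sum_comm]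
  refine Finset.sum_congr rfl fun T _ => ?_
  rw [Finset.sum_eq_single (rho2 n - ∑ r ∈ T, posRoot2 r.1.1 r.1.2.1 r.1.2.2)]
  · rw [if_pos rfl, mul_comm]
  · intro ν _ hν
    rw [if_neg hν, mul_zero]
  · intro h
    exact absurd (Finset.mem_union_right _ (Finset.mem_image.2 ⟨T, Finset.mem_univ _, rfl⟩)) h

/-- (C-c) consequence of (C-a), (C-b) -/
theorem kostant_altWD (β : Fin n → ℤ) :
    altWD (fun y => (kostantD (β + y - rho2 n) : ℤ)) (rho2 n) = if β = 0 then 1 else 0 := by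
  rw [ckf_denom, ← kostant_inv β]
  refine Finset.sum_congr rfl fun T _ => ?_
  congr 3
  abel

theorem ckf_kostant_ne_zero {x : Fin n → ℤ} (h : kostantD x ≠ 0) : InQplus x := by
  unfold kostantD at h
  have : Nonempty {c : {r : Fin n × Fin n × Bool // r.1 < r.2.1} → ℕ //
      ∑ r, c r • posRoot2 r.1.1 r.1.2.1 r.1.2.2 = x} := by
    by_contra hne
    rw [not_nonempty_iff] at hne
    exact h Nat.card_of_isEmpty
  obtain ⟨c, hc⟩ := this
  exact ⟨c, hc⟩

/-- uniqueness: a function bounded above in height and killed by the denominator vanishes -/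
theorem ckf_unique (d : (Fin n → ℤ) → ℤ) (C : ℤ) (hC : ∀ γ, d γ ≠ 0 → ∑ i, γ i * rho2 n i ≤ C)
    (h0 : ∀ ν, altWD (fun y => d (ν - y)) (rho2 n) = 0) (γ : Fin n → ℤ) : d γ = 0 := by
  by_contra hγ
  obtain ⟨z, ⟨γ₀, hγ₀, rfl⟩, hmax⟩ := Int.exists_greatest_of_bdd
    (P := fun z => ∃ γ, d γ ≠ 0 ∧ ∑ i, γ i * rho2 n i = z)
    ⟨C, fun z ⟨γ, h1, h2⟩ => h2 ▸ hC γ h1⟩ ⟨_, γ, hγ, rfl⟩
  apply hγ₀
  have h1 := h0 (γ₀ + rho2 n)
  rw [altWD_eq_single] at h1
  · simpa using h1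
  · intro σ s hs hne
    by_contra hd
    have h2 := hmax _ ⟨_, hd, rfl⟩
    have h3 : rho2 n - signedPermAct σ s (rho2 n) ≠ 0 := by
      intro h
      exact hne (spa_stab _ rho2_reg σ s hs (sub_eq_zero.1 h).symm)
    have h4 := qplus_pair_pos _ (dom_sub_mem _ rho2_dominant σ s hs) h3 (rho2 n) rho2_reg
    have e : ∑ i, (γ₀ + rho2 n - signedPermAct σ s (rho2 n)) i * rho2 n i =
        ∑ i, γ₀ i * rho2 n i + ∑ i, (rho2 n - signedPermAct σ s (rho2 n)) i * rho2 n i := by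
      rw [← Finset.sum_add_distrib]
      refine Finset.sum_congr rfl fun i _ => ?_
      simp only [Pi.add_apply, Pi.sub_apply]
      ring
    rw [e] at h2
    omega

/-- (C-d) Kostant's multiplicity formula for Weyl characters (uniqueness by the height `γ ↦ γ · ρ`) -/
theorem weylChar_kostant (M : Fin n → ℤ) (m : (Fin n → ℤ) → ℤ) (h : IsWeylChar2 M m) (γ : Fin n → ℤ) :
    m γ = altWD (fun y => (kostantD (y - (γ + rho2 n)) : ℤ)) (M + rho2 n) := by
  classical
  set K : (Fin n → ℤ) → ℤ := fun γ => altWD (fun y => (kostantD (y - (γ + rho2 n)) : ℤ)) (M + rho2 n)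
    with hK
  -- `K` satisfies the same equation
  have hKeq : ∀ ν, altWD (fun y => K (ν - y)) (rho2 n) =
      altWD (fun y => if ν = y then 1 else 0) (M + rho2 n) := by
    intro ν
    rw [hK]
    show altWD (fun y => altWD (fun z => (kostantD (z - (ν - y + rho2 n)) : ℤ)) (M + rho2 n)) (rho2 n) = _
    rw [altWD_swap (fun y z => (kostantD (z - (ν - y + rho2 n)) : ℤ))]
    congr 1
    ext z
    have e : (fun y => (kostantD (z - (ν - y + rho2 n)) : ℤ)) =
        fun y => (kostantD ((z - ν) + y - rho2 n) : ℤ) := by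
      ext y
      congr 2
      abel
    rw [e, kostant_altWD]
    by_cases hz : ν = z
    · rw [if_pos hz, if_pos (by rw [hz, sub_self])]
    · rw [if_neg hz, if_neg (fun h' => hz (sub_eq_zero.1 h').symm)]
  -- heights
  obtain ⟨B₁, hB₁⟩ := (h.1.image fun γ : Fin n → ℤ => ∑ i, γ i * rho2 n i).bddAbove
  obtain ⟨B₂, hB₂⟩ := Finite.bddAbove_range
    (fun p : Equiv.Perm (Fin n) × (Fin n → Bool) => ∑ i, signedPermAct p.1 p.2 (M + rho2 n) i * rho2 n i)
  have hKht : ∀ γ, K γ ≠ 0 → ∑ i, γ i * rho2 n i ≤ B₂ := by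
    intro γ hγ
    rw [hK] at hγ
    have hγ' : (∑ σ : Equiv.Perm (Fin n), ∑ s : Fin n → Bool, if evenS s then
        ((Equiv.Perm.sign σ : ℤˣ) : ℤ) * (kostantD (signedPermAct σ s (M + rho2 n) - (γ + rho2 n)) : ℤ)
          else 0) ≠ 0 := hγ
    obtain ⟨σ, -, hσ⟩ := Finset.exists_ne_zero_of_sum_ne_zero hγ'
    obtain ⟨s, -, hs⟩ := Finset.exists_ne_zero_of_sum_ne_zero hσ
    have hk : kostantD (signedPermAct σ s (M + rho2 n) - (γ + rho2 n)) ≠ 0 := by
      intro h0
      apply hs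
      rw [h0]
      simp
    have h1 := qplus_pair_nonneg _ (ckf_kostant_ne_zero hk) (rho2 n) (fun i j hij => (rho2_reg i j hij).le)
    have h2 : ∑ i, signedPermAct σ s (M + rho2 n) i * rho2 n i ≤ B₂ := hB₂ ⟨(σ, s), rfl⟩
    have h3 : 0 ≤ ∑ i, rho2 n i * rho2 n i := Finset.sum_nonneg fun i _ => mul_self_nonneg _
    have e : ∑ i, (signedPermAct σ s (M + rho2 n) - (γ + rho2 n)) i * rho2 n i =
        ∑ i, signedPermAct σ s (M + rho2 n) i * rho2 n i - ∑ i, γ i * rho2 n i - ∑ i, rho2 n i * rho2 n i := by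
      rw [← Finset.sum_sub_distrib, ← Finset.sum_sub_distrib]
      refine Finset.sum_congr rfl fun i _ => ?_
      simp only [Pi.add_apply, Pi.sub_apply]
      ring
    rw [e] at h1
    omega
  have hfin := ckf_unique (fun γ => m γ - K γ) (max B₁ B₂) ?_ ?_ γ
  · exact sub_eq_zero.1 hfin
  · intro γ hγ
    by_cases hm : m γ = 0
    · have : K γ ≠ 0 := by
        intro h0
        apply hγ
        rw [hm, h0, sub_zero]
      exact (hKht γ this).trans (le_max_right _ _)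
    · exact (hB₁ ⟨γ, hm, rfl⟩).trans (le_max_left _ _)
  · intro ν
    rw [altWD_sub (fun y => m (ν - y)) (fun y => K (ν - y)), h.2 ν, hKeq ν, sub_self]

end Claimed.Agent.R282
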