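import Claimed.Agent.R282.Rep.C.W4.Lap
import Claimed.Agent.R282.Rep.C.W4.Alt
import Claimed.Agent.R282.Rep.C.W4.Dom

/-!
# Row 282, Rep, PACKAGE BP-C-W4 : Freudenthal ⇒ Weyl character formula (statement by helper103), ~2.5k lines, pure algebra, NO cancellation needed

Ring `A = AddMonoidAlgebra ℤ (Fin n → ℤ)`, `e^γ = single γ 1`.  Derivations `∂_i e^γ = γ_i e^γ`; `Δ = ∑ ∂_i²`; `Δ(fg) = f Δg + 2 ∑ ∂_i f ∂_i g + g Δf`.  (Doubled coordinates: all inner products are multiplied by `4`.)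
`χ = ∑ m γ e^γ`, `D = e^ρ ∏_(β>0) (1 - e^(-β)) = ∑_w det w e^(wρ)` (`denomD`), so `Δ D = |ρ|² D`.  `D_β = e^ρ ∏_(β'≠β) (1 - e^(-β'))`.
1. string sums: `∑_(k∈ℤ) ⟨γ+kβ,β⟩ m(γ+kβ) = 0` (invariance of `m` under the reflection in `β`).  So `S_β := ∑_γ (∑_(k≥1) ⟨γ+kβ,β⟩ m(γ+kβ)) e^γ` has finite support, and `(1 - e^(-β)) S_β = e^(-β) ∂_β χ`, `∂_β = ∑ β_i ∂_i`.
2. `∂_i D = ρ_i D + ∑_β β_i e^(-β) D_β`; hence `∑_i ∂_i D ∂_i χ = D ∂_ρ χ + ∑_β D_β e^(-β) ∂_β χ = D (∂_ρ χ + ∑_β S_β)`.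
3. Freudenthal (`hF`) reads `(|L+ρ|² - |ρ|²) χ = Δχ + 2 ∂_ρ χ + 2 ∑_β S_β`.  Multiply by `D`: `Δ(Dχ) = |L+ρ|² Dχ`.
4. `E = Dχ`, `E ν = altWD (fun y => m (ν - y)) ρ`.  `E (w ν) = det w E ν`.  If `E ν ≠ 0` then `|ν|² = |L+ρ|²`; move `ν` to the dominant chamber; `m (ν - wρ) ≠ 0` for some `w`, so `L + ρ - ν = (L - (ν - wρ)) + (ρ - wρ) ∈ Q₊`;
   `0 = |L+ρ|² - |ν|² = ⟨L+ρ-ν, L+ρ+ν⟩` with `L+ρ+ν` strictly dominant, so `ν = L+ρ`.  `E (L+ρ) = m L = 1` (`m (L + ρ - wρ) = 0` for `w ≠ 1`).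
TOOLKIT on `W(D_n)` in the `(σ, s)` form: `C/WDkit.lean`.

STATE (helper78): CUT + GLUED.  The route actually used is in `C/W4/Defs.lean` (finite sums over subsets of positive roots; no group algebra, steps 1-3 above are replaced by
`cw4_transfer`, `cw4_exists_K`, `cw4_split`, `cw4_lap`); step 4 = `cw4_E_act`, `cw4_J_act`, `cw4_E_dom`, `cw4_J_dom`.  The theorem below is PROVED from these leaves.
-/

set_option autoImplicit false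

namespace Claimed.Agent.R282

open Claims.C0456 Matrix

variable {n : ℕ}
variable {ι ι' ι₁ ι₂ ι₃ : Type} [Fintype ι] [DecidableEq ι] [Fintype ι'] [DecidableEq ι']
  [Fintype ι₁] [DecidableEq ι₁] [Fintype ι₂] [DecidableEq ι₂] [Fintype ι₃] [DecidableEq ι₃]

/-- (W4) Freudenthal + Weyl invariance + top weight ⇒ Weyl character formula (pure algebra in `ℤ[ℤⁿ]`).
Doubled weights: `⟨x,y⟩ = (1/4) ∑ x_i y_i`; the formula below is Freudenthal's formula multiplied by `4`. -/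
theorem weylChar_of_freudenthal (hn : 2 ≤ n) (L : Fin n → ℤ) (hL : IsDominantWeight2 L)
    (m : (Fin n → ℤ) → ℤ) (hfin : (Function.support m).Finite) (htop : m L = 1)
    (hle : ∀ γ, m γ ≠ 0 → InQplus (L - γ))
    (hW : ∀ (σ : Equiv.Perm (Fin n)) (s : Fin n → Bool),
      Even (Finset.univ.filter fun i => s i = true).card → ∀ γ, m (signedPermAct σ s γ) = m γ)
    (hF : ∀ (γ : Fin n → ℤ) (K : ℕ), (∀ k, K ≤ k → ∀ r : {r : Fin n × Fin n × Bool // r.1 < r.2.1},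
        m (γ + k • posRoot2 r.1.1 r.1.2.1 r.1.2.2) = 0) →
      ((∑ i, (L i + rho2 n i) ^ 2) - ∑ i, (γ i + rho2 n i) ^ 2) * m γ =
        2 * ∑ r : {r : Fin n × Fin n × Bool // r.1 < r.2.1}, ∑ k ∈ Finset.Ico 1 K,
          (∑ i, (γ + k • posRoot2 r.1.1 r.1.2.1 r.1.2.2) i * posRoot2 r.1.1 r.1.2.1 r.1.2.2 i) *
            m (γ + k • posRoot2 r.1.1 r.1.2.1 r.1.2.2)) :
    IsWeylChar2 L m := by
  have hF' : Cw4Freud L m := hF
  have hW' : Cw4Inv m := hW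
  refine ⟨hfin, fun ν => ?_⟩
  obtain ⟨σ, s, hs, hdom⟩ := exists_domZ2 ν
  have h1 := cw4_E_act m hW' σ s hs (rho2 n) ν
  have h2 := cw4_J_act σ s hs (L + rho2 n) ν
  have h3 := cw4_E_dom L hL m htop hle (cw4_lap L m hfin hF') _ hdom
  have h4 := cw4_J_dom (L + rho2 n) (add_rho2_reg L hL) _ hdom
  rw [h1] at h3
  rw [h2] at h4
  have h5 : ((Equiv.Perm.sign σ : ℤˣ) : ℤ) * altWD (fun y => m (ν - y)) (rho2 n) =
      ((Equiv.Perm.sign σ : ℤˣ) : ℤ) * altWD (fun y => if ν = y then 1 else 0) (L + rho2 n) := by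
    rw [h3, h4]
  exact mul_left_cancel₀ (Units.ne_zero _) h5

end Claimed.Agent.R282
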